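import Crest.Agent.X212.Exs4.Gen
import Crest.Agent.X212.Hd82.Defs

/-!
# Row 212, STZ (helper4), part 3: the leaf
-/

namespace Crest.Agent.X212.Exs4

/-- **LEAF STZ** -/
theorem stz (κ lam : Type) [Fintype κ] [Fintype lam] : Hd82.StzStmt κ lam := fun _ => stz'

end Crest.Agent.X212.Exs4
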