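import Crest.Agent.X212.One97.Ext
import Crest.Agent.X212.Bki64.Eng
import Crest.Agent.X212.Bki64.G1
import Crest.Agent.X212.Nka63.B
import Crest.Agent.X212.Loc66.Paste

/-!
# Row 212, STZ (helper4), part 1: cutting off a configuration on a neck
-/

set_option autoImplicit false
set_option linter.unusedSectionVars false
noncomputable section
open scoped Manifold ContDiff Topology InnerProductSpace
open MeasureTheory Set Function Filter

namespace Crest.Agent.X212.Exs4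
open An Pj41 Tmp64 Cyf70 One97 Bki64 Neck67
open Wz78 (SA)

section gen
variable {E : Type} [NormedAddCommGroup E] [NormedSpace ℝ E] [FiniteDimensional ℝ E]
  [MeasurableSpace E] [BorelSpace E]
  {HM : Type} [TopologicalSpace HM] {I : ModelWithCorners ℝ E HM}
  {M : Type} [TopologicalSpace M] [ChartedSpace HM M] [IsManifold I ∞ M]
  [MeasurableSpace M] {ι : Type} [Fintype ι] {lam : Type} [Fintype lam] {r r' : ℕ}
  {B : Base M ι lam} {G : Geo I M ι lam} {c : Cfg M ι lam r} {O : Set M} {m : Md M ι lam}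

/-- admissibility is local -/
theorem adm_loc (hc : c.Adm B G) {W : c.m.Cn} {Φ : M → c.m.V}
    (h : ∀ x, ∃ O W' Φ', IsOpen O ∧ x ∈ O ∧ (⟨c.m, W', Φ', c.z⟩ : Cfg M ι lam r).Adm B G ∧
      ∀ y ∈ O, (∀ a, W a y = W' a y) ∧ Φ y = Φ' y) :
    (⟨c.m, W, Φ, c.z⟩ : Cfg M ι lam r).Adm B G := by
  refine ⟨hc.ok, ConnOn.isConn (ConnOn.of_local fun x _ => ?_) hc.ok, fun x => ?_, fun x => ?_, hc.z⟩
  all_goals obtain ⟨O, W', Φ', o, hx, a, e⟩ := h x
  · exact ⟨O, hx, (IsConn.on a.conn _).congr o fun b y hy => (e y hy).1 b⟩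
  · exact (a.sm x).congr_of_eventuallyEq ((o.eventually_mem hx).mono fun y hy => (e y hy).2)
  · exact (congrArg (c.m.pp B x) (e x hx).2).trans ((a.pos x).trans (e x hx).2.symm)

/-- patching, with a formula for the distance from `c'` -/
theorem patch' (hG : G.F.P = B.P) (hc : c.Adm B G) {c' : Cfg M ι lam r'} (hO : IsOpen O)
    (hc' : AdmOn c' B G O) {v : M → CL c.m.V c'.m.V} (hv : Iso0 I c.m c'.m O v) {χ : M → ℝ}
    (hχ : ∀ x ∈ O, SA I χ x) {K : Set M} (hK : IsClosed K) (hs : K ⊆ O) (h0 : ∀ x ∉ K, χ x = 0)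
    (ζ : Circle) : ∃ W Φ, (⟨c.m, W, Φ, c.z⟩ : Cfg M ι lam r).Adm B G ∧
      (∀ x ∉ K, (∀ a, W a x = c.W a x) ∧ Φ x = c.Φ x) ∧ ∀ x ∈ O,
        (∀ a, G.F.D a v x + c'.W a x ∘L v x - v x ∘L W a x =
          (1 - χ x) • (G.F.D a v x + c'.W a x ∘L v x - v x ∘L c.W a x)) ∧
          cs c'.m.J ζ (v x (Φ x)) - c'.Φ x = (1 - χ x) • (cs c'.m.J ζ (v x (c.Φ x)) - c'.Φ x) := by
  have A := (admOn_univ.2 hc).mono (subset_univ O)
  have i := hv.symm A.ok hc'.ok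
  obtain ⟨h1, h2⟩ := conn_push i hO hc'.ok A.ok hG hc'.conn
  have h3 := h2.symm i.su hc'.conn.sk h1.sk
  simp only [ad_ad] at h3
  set W' := pshC G.F (fun x => ad (v x)) c'.W
  let Φ' : M → c.m.V := fun x => cs c.m.J (ζ⁻¹ : Circle) (ad (v x) (c'.Φ x))
  have e : ∀ x ∉ K, (∀ a, (1 - χ x) • c.W a x + χ x • W' a x = c.W a x) ∧
      (1 - χ x) • c.Φ x + χ x • Φ' x = c.Φ x := fun x hx => by simp [h0 x hx]
  have cov : ∀ x, x ∈ O ∨ x ∈ Kᶜ := fun x => (em (x ∈ K)).imp_left fun h => hs h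
  refine ⟨fun a x => (1 - χ x) • c.W a x + χ x • W' a x, fun x => (1 - χ x) • c.Φ x + χ x • Φ' x,
    ⟨hc.ok, ConnOn.isConn (ConnOn.of_local fun x _ => ?_) hc.ok, fun x => ?_, fun x => ?_, hc.z⟩,
    e, fun x hx => ⟨fun a => ?_, ?_⟩⟩
  · rcases cov x with h | h
    · exact ⟨O, h, connOn_affine A.conn h1 hχ⟩
    · exact ⟨Kᶜ, h, (IsConn.on hc.conn _).congr hK.isOpen_compl fun a y hy => (e y hy).1 a⟩
  · rcases cov x with h | h
    · have s : SA I (fun y => ad (v y) (c'.Φ y)) x := (i.su x h).clm_apply (hc'.sm x h)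
      have k : ∀ t : ℝ, SA I (fun _ => t) x := fun _ => contMDiffAt_const
      exact ((contMDiffAt_const.sub (hχ x h)).smul (hc.sm x)).add ((hχ x h).smul
        (((k _).smul s).add ((k _).smul (SA.clm c.m.J s))))
    · exact (hc.sm x).congr_of_eventuallyEq
        ((hK.isOpen_compl.eventually_mem h).mono fun y hy => (e y hy).2)
  · rcases cov x with h | h
    · have k : c.m.pp B x (ad (v x) (c'.Φ x)) = ad (v x) (c'.Φ x) := by
        rw [iso_pp i h, hc'.pos x h]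
      have k' : ∀ w, c.m.pp B x (c.m.J w) = c.m.J (c.m.pp B x w) := fun w =>
        (congrArg (· w) (Std94.J_pp (B := B) (Std94.pmx hc.ok x))).symm
      simp only [Φ', cs, map_add, map_smul, hc.pos, k, k']
    · simp only [(e x h).2, hc.pos]
  · rw [sub_eq_zero.1 (h3 x hx a)]
    simp only [ContinuousLinearMap.comp_add, ContinuousLinearMap.comp_smul]
    module
  · have k : v x (ad (v x) (c'.Φ x)) = c'.Φ x :=
      (congrArg (· (c'.Φ x)) (hv.iso x hx).tgt).trans (hc'.pΦ hx)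
    have := cs_inv hc'.ok.Jsq ζ⁻¹ (c'.Φ x)
    rw [inv_inv] at this
    have k2 : cs c'.m.J ζ (v x (Φ' x)) = c'.Φ x := by simp only [Φ', ← iso_cs hv hx, k, this]
    simp only [← csB_apply, map_add, map_smul] at k2 ⊢
    rw [k2]
    module

end gen

variable {E3 : Type} [NormedAddCommGroup E3] [NormedSpace ℝ E3] [FiniteDimensional ℝ E3]
  [MeasurableSpace E3] [BorelSpace E3]
  {H3 : Type} [TopologicalSpace H3] {I3 : ModelWithCorners ℝ E3 H3} [I3.Boundaryless]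
  {Y : Type} [TopologicalSpace Y] [ChartedSpace H3 Y] [IsManifold I3 ∞ Y] [T2Space Y]
  [MeasurableSpace Y] [BorelSpace Y] [SecondCountableTopology Y] [CompactSpace Y]
  {κ : Type} [Fintype κ] {lam : Type} [Fintype lam]
  {E : Type} [NormedAddCommGroup E] [NormedSpace ℝ E] [FiniteDimensional ℝ E]
  [MeasurableSpace E] [BorelSpace E]
  {HM : Type} [TopologicalSpace HM] {I : ModelWithCorners ℝ E HM} [I.Boundaryless]
  {M : Type} [TopologicalSpace M] [ChartedSpace HM M] [IsManifold I ∞ M] [MeasurableSpace M]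
  [T2Space M] [BorelSpace M]

open Nd18

variable {D : YD I3 Y κ lam} {B : Base M (Option κ) lam} {G : Geo I M (Option κ) lam}
  (K : Nk D B G) {β : YC Y κ lam} {r : ℕ}

theorem kd_pb {c : Cfg M (Option κ) lam r} {z : Y × ℝ} (hz : z ∈ K.ψ.source) :
    (K.pb c).m.kd D.B D.Z (K.pb c).W z = c.m.kd B G.F c.W (K.ψ z) := by
  have e1 : (K.pb c).m.Fg D.Z (K.pb c).W z = c.m.Fg G.F c.W (K.ψ z) := K.rel.Fg hz c.W
  have e2 : D.B.st z = B.st (K.ψ z) := funext₂ fun s t => by simp only [Base.st, K.o _ _ _ _ z hz]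
  simp only [Md.kd, e1, e2]
  rfl

theorem vol_tm {S : Set ℝ} (hS : MeasurableSet S) (h : S ⊆ K.J) :
    G.F.μ (K.tm ⁻¹' S) ≤ D.F.μ univ * volume S := by
  have h1 : MeasurableSet (K.tm ⁻¹' S) := K.cont.measurable hS
  have h2 : K.tm ⁻¹' S ⊆ K.ψ.target := fun x hx => K.tgt ▸ h hx
  rw [← Measure.restrict_eq_self _ h2, ← K.iso.μ, Measure.map_apply_of_aemeasurable
    (K.ψ.continuousOn.aemeasurable K.ψ.open_source.measurableSet) h1,
    Measure.restrict_apply' K.ψ.open_source.measurableSet, ← Measure.prod_prod]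
  exact measure_mono fun x hx => ⟨trivial, K.tm_ψ x hx.2 ▸ hx.1⟩

omit K in
theorem lb_chi : ∃ L, 1 ≤ L ∧ ∀ s : ℝ,
    Lb D.Z.toPre (univ ×ˢ Ioo s (s + 1)) 1 (fun x => chi (x.2 - s)) L ∧
    Lb D.Z.toPre (univ ×ˢ Ioo s (s + 1)) 1 (fun x => 1 - chi (x.2 - s)) L := by
  obtain ⟨C, h0, h⟩ := chi_bd 1
  refine ⟨1 + C, by linarith, fun s => ?_⟩
  have o : IsOpen (univ ×ˢ Ioo s (s + 1) : Set (Y × ℝ)) := isOpen_univ.prod isOpen_Ioo
  have k : Lb D.Z.toPre (univ ×ˢ Ioo s (s + 1)) 1 (fun x => chi (x.2 - s)) C :=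
    lb_snd o h0.le (chi_sm s) fun j hj x hx => h j hj s x.2
      (abs_le.2 ⟨by linarith [hx.2.1], by linarith [hx.2.2]⟩)
  exact ⟨k.mono (by linarith), ((Lb.const o (1 : ℝ)).sub' o k).mono (by simp [abs_of_pos h0])⟩

/-- **cutting off** -/
theorem cut (hG : G.OK B) {c : Cfg M (Option κ) lam r} (hc : c.Adm B G) (hβ : D.Adm β)
    {u : Y × ℝ → CL c.m.V β.m.V} (ζ : Circle) {S C : Set ℝ} (hS : IsOpen S) (SJ : S ⊆ K.J)
    (hv : Iso0 (IC I3) (K.pb c).m (cy β).m (univ ×ˢ S) u) {χ : ℝ → ℝ} (hχ : ContDiff ℝ ∞ χ)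
    (hC : IsClosed C) (h2 : C ⊆ S) (h5 : ∀ t ∉ C, χ t = 0) :
    ∃ W Φ, (⟨c.m, W, Φ, c.z⟩ : Cfg M _ lam r).Adm B G ∧
      (∀ x ∉ K.tm ⁻¹' C, (∀ a, W a x = c.W a x) ∧ Φ x = c.Φ x) ∧ ∀ z ∈ univ ×ˢ S,
        (∀ a, cov D.Z (K.pb ⟨c.m, W, Φ, c.z⟩) (cy β) u a z =
          (1 - χ z.2) • cov D.Z (K.pb c) (cy β) u a z) ∧
        dP (K.pb ⟨c.m, W, Φ, c.z⟩) (cy β) u ζ z = (1 - χ z.2) • dP (K.pb c) (cy β) u ζ z := by
  have tg : ∀ x ∈ K.tm ⁻¹' S, x ∈ K.ψ.target := fun x hx => K.tgt ▸ SJ hx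
  have sm := fun x hx => (K.rel'.ld x (tg x hx)).contMDiffAt
  have i' : Iso0 I c.m (pb K.ψ.symm (cy β)).m (K.tm ⁻¹' S) fun x => u (K.ψ.symm x) :=
    iso_fix (f := fun x => K.ψ (K.ψ.symm x)) (cm_iso0 sm (fun x hx => mk_mem_prod (mem_univ _)
      ((K.snd_symm (tg x hx)).symm ▸ hx : (K.ψ.symm x).2 ∈ S)) hv)
      fun x hx => K.ψ.right_inv (tg x hx)
  obtain ⟨W, Φ, k1, k2, k3⟩ := patch' hG.P hc (hS.preimage K.cont)
    ((admOn_push K isOpen_univ (admOn_univ.2 hβ.adm)).mono fun x hx => ⟨tg x hx, trivial⟩) i'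
    (χ := fun x => χ (K.tm x)) (fun x hx => ((sm_snd (I := I3) (Y := Y) hχ _).comp x
      (sm x hx)).congr_of_eventuallyEq ((K.ψ.open_target.eventually_mem (tg x hx)).mono
        fun y hy => by simp only [comp_apply, K.snd_symm hy]))
    (hC.preimage K.cont) (preimage_mono h2) (fun x hx => h5 _ hx) ζ
  refine ⟨W, Φ, k1, k2, fun x hx => ?_⟩
  have sr : x ∈ K.ψ.source := K.mem_src.2 (SJ hx.2)
  have k4 := k3 (K.ψ x) (by rw [mem_preimage, K.tm_ψ x sr]; exact hx.2)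
  refine ⟨fun a => ?_, ?_⟩
  · have e : G.F.D a (fun x => u (K.ψ.symm x)) (K.ψ x) + β.W a (K.ψ.symm (K.ψ x)).1 ∘L
      u (K.ψ.symm (K.ψ x)) - u (K.ψ.symm (K.ψ x)) ∘L W a (K.ψ x) = (1 - χ (K.tm (K.ψ x))) •
      (G.F.D a (fun x => u (K.ψ.symm x)) (K.ψ x) + β.W a (K.ψ.symm (K.ψ x)).1 ∘L
      u (K.ψ.symm (K.ψ x)) - u (K.ψ.symm (K.ψ x)) ∘L c.W a (K.ψ x)) := k4.1 a
    rw [← K.rel.D sr a (u := u) ((K.ψ.eventually_left_inverse sr).mono
      fun y hy => (congrArg u hy).symm), K.ψ.left_inv sr, K.tm_ψ x sr] at e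
    exact e
  · have e : cs β.m.J ζ (u (K.ψ.symm (K.ψ x)) (Φ (K.ψ x))) - β.Φ (K.ψ.symm (K.ψ x)).1 =
      (1 - χ (K.tm (K.ψ x))) • (cs β.m.J ζ (u (K.ψ.symm (K.ψ x)) (c.Φ (K.ψ x))) -
        β.Φ (K.ψ.symm (K.ψ x)).1) := k4.2
    rw [K.ψ.left_inv sr, K.tm_ψ x sr] at e
    exact e

/-- cutting off, with estimates -/
theorem cut' (hG : G.OK B) {c : Cfg M (Option κ) lam r} (hc : c.Adm B G) (hβ : D.Adm β)
    {u : Y × ℝ → CL c.m.V β.m.V} {ζ : Circle} {S C : Set ℝ} (hS : IsOpen S) (SJ : S ⊆ K.J) {δ : ℝ}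
    (h : Cl D.Z (K.pb c) (cy β) u (fun _ => ζ) (univ ×ˢ S) 1 δ) {χ : ℝ → ℝ} (hχ : ContDiff ℝ ∞ χ)
    (hC : IsClosed C) (h2 : C ⊆ S) (h5 : ∀ t ∉ C, χ t = 0) :
    ∃ W Φ, (⟨c.m, W, Φ, c.z⟩ : Cfg M _ lam r).Adm B G ∧
      (∀ x ∉ K.tm ⁻¹' C, (∀ a, W a x = c.W a x) ∧ Φ x = c.Φ x) ∧ ∀ N L, IsOpen N → N ⊆ S →
        Lb D.Z.toPre (univ ×ˢ N) 1 (fun x => 1 - χ x.2) L →
        Cl D.Z (K.pb ⟨c.m, W, Φ, c.z⟩) (cy β) u (fun _ => ζ) (univ ×ˢ N) 1 (2 * |L| * |δ|) := by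
  obtain ⟨W, Φ, k1, k2, k3⟩ := cut K hG hc hβ ζ hS SJ h.iso hχ hC h2 h5
  refine ⟨W, Φ, k1, k2, fun N L hN hs hL => ?_⟩
  have o : IsOpen (univ ×ˢ N : Set (Y × ℝ)) := isOpen_univ.prod hN
  have i := prod_mono_right (s := (univ : Set Y)) hs
  exact ⟨o, h.iso.mono i, fun a => ((hL.smul o ((h.A a).sub i)).mono (by rw [pow_one])).congr o
    fun x hx => (congrArg (· ∘L trn (u x)) ((k3 x (i hx)).1 a)).trans
      (ContinuousLinearMap.smul_comp _ _ _),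
    ((hL.smul o (h.P.sub i)).mono (by rw [pow_one])).congr o fun x hx => (k3 x (i hx)).2⟩

omit K in
theorem eq_of_cl (hD : D.OK) (hβ : D.Adm β) {c : Cfg (Y × ℝ) (Option κ) lam 0} {O : Set (Y × ℝ)}
    (a : AdmOn c D.B D.G O) {u ζ k} (h : Cl D.Z c (cy β) u (fun _ => ζ) O k 0) :
    CEq D.Z c (cy β) O id (fun x b a => D.B.P b a x) D.B.l u ζ :=
  ⟨h.iso.mEq a.ok (OK.on hβ.adm.ok _),
    (par0_iff ((IsConn.on hβ.adm.conn _).proj' hD.B)).1 fun x hx b =>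
      (dA_u (G := D.G) h.iso h.op a hx b).symm.trans
        ((congrArg (· ∘L u x) (norm_le_zero_iff.1 ((h.A b).le hx))).trans
          (ContinuousLinearMap.zero_comp _)),
    fun _ hx => (sub_eq_zero.1 (norm_le_zero_iff.1 (h.P.le hx))).symm, Subsingleton.elim _ _⟩

omit K in
/-- cut-off functions on the two ends -/
theorem exists_chi (o : Bool) : ∃ L, 1 ≤ L ∧ ∀ s : ℝ, ∃ (χ : ℝ → ℝ) (N : Set ℝ), ContDiff ℝ ∞ χ ∧
    IsOpen N ∧ volume N ≤ 1 ∧ N ⊆ {t | s < (bif o then 1 else -1) * t} ∧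
    Lb D.Z.toPre (univ ×ˢ N) 1 (fun x => 1 - χ x.2) L ∧
    (∀ t, ¬s + 1 / 3 ≤ (bif o then 1 else -1) * t → χ t = 0) ∧
    (∀ t, s + 2 / 3 < (bif o then 1 else -1) * t → χ t = 1) ∧
    ∀ t, s < (bif o then 1 else -1) * t → t ∈ N ∨ s + 2 / 3 < (bif o then 1 else -1) * t := by
  obtain ⟨L, h1, h⟩ := lb_chi (D := D)
  refine ⟨L, h1, fun s => ?_⟩
  cases o <;> simp only [cond]
  · refine ⟨fun t => 1 - chi (t - (-s - 1)), Ioo (-s - 1) (-s - 1 + 1),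
      contDiff_const.sub (chi_sm _), isOpen_Ioo, by simp, fun t ht => ?_,
      by simpa only [sub_sub_cancel] using (h (-s - 1)).1, fun t ht => ?_, fun t ht => ?_,
      fun t ht => (le_or_gt (-1 * t) (s + 2 / 3)).imp_left fun k => ⟨by linarith, by linarith⟩⟩
    · exact show s < -1 * t by linarith [ht.2]
    · exact sub_eq_zero.2 (chi_one (by linarith)).symm
    · exact sub_eq_self.2 (chi_zero (by linarith))
  · exact ⟨fun t => chi (t - s), Ioo s (s + 1), chi_sm _, isOpen_Ioo, by simp,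
      fun t ht => show s < 1 * t by linarith [ht.1], (h s).2, fun t ht => chi_zero (by linarith),
      fun t ht => chi_one (by linarith),
      fun t ht => (le_or_gt (1 * t) (s + 2 / 3)).imp_left fun k => ⟨by linarith, by linarith⟩⟩

omit K in
theorem tail {μ : Measure M} {f g : M → ℝ} (hf : Integrable f μ) (hg : Continuous g) :
    Tendsto (fun s : ℝ => ∫ x in {x | s < g x}, f x ∂μ) atTop (𝓝 0) := by
  have := tendsto_setIntegral_of_antitone (μ := μ) (f := f) (s := fun s : ℝ => {x | s < g x})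
    (fun s => (isOpen_lt continuous_const hg).measurableSet)
    (fun s t h x hx => h.trans_lt hx) ⟨0, hf.integrableOn⟩
  rwa [show ⋂ s : ℝ, {x | s < g x} = ∅ from eq_empty_of_forall_notMem fun x hx =>
    lt_irrefl (g x) (mem_iInter.1 hx (g x)), setIntegral_empty] at this

end Crest.Agent.X212.Exs4
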