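import Crest.Agent.X212.Exs4.Cut
import Crest.Agent.X212.Nd18.Ind

/-!
# Row 212, STZ (helper4), part 2: standard configurations of almost the same level
-/

set_option autoImplicit false
set_option linter.unusedSectionVars false
noncomputable section
open scoped Manifold ContDiff Topology InnerProductSpace
open MeasureTheory Set Function Filter

namespace Crest.Agent.X212.Exs4
open An M Pj41 Tmp64 Cyf70 One97 Bki64 Neck67 Nd18

variable {κ lam : Type} [Fintype κ] [Fintype lam] {Z : Mf 4} {B : Base Z.M (Option κ) lam}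
  {G : Geo Z.I Z.M (Option κ) lam} (e : En B G) {c : C0 Z κ lam} {β : e.X.C} {s t : ℝ}

theorem ht_anti (h : s ≤ t) : e.ht t ⊆ e.ht s := fun _ k => h.trans_lt k

theorem ht_op (s : ℝ) : IsOpen (e.ht s) :=
  isOpen_lt continuous_const (continuous_const.mul continuous_id)

theorem U_eq (h : e.ht s ⊆ e.K.J) : e.U s = e.K.tm ⁻¹' e.ht s := by
  ext x
  constructor
  · rintro ⟨z, hz, rfl⟩
    rw [mem_preimage, e.K.tm_ψ z (e.K.mem_src.2 (h hz.2))]
    exact hz.2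
  · intro hx
    have k : x ∈ e.K.ψ.target := e.K.tgt ▸ h hx
    exact ⟨e.K.ψ.symm x, ⟨trivial, (e.K.snd_symm k).symm ▸ hx⟩, e.K.ψ.right_inv k⟩

theorem ht_sub {S : Set ℝ} (h : S ∈ (bif e.out then atTop else atBot : Filter ℝ)) :
    ∃ s, e.ht s ⊆ S := by
  unfold En.ht
  cases k : e.out <;> rw [k] at h
  · obtain ⟨a, ha⟩ := mem_atBot_sets.1 h
    exact ⟨-a, fun t ht => ha t (by have : -a < -1 * t := ht; linarith)⟩
  · obtain ⟨a, ha⟩ := mem_atTop_sets.1 h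
    exact ⟨a, fun t ht => ha t (by have : a < 1 * t := ht; linarith)⟩

theorem sd_congr {W W' : c.m.Cn} {Φ Φ' : Z.M → c.m.V} (h : e.Sd ⟨c.m, W, Φ, c.z⟩ β)
    (k : ∀ x ∈ e.U s, (∀ a, W' a x = W a x) ∧ Φ' x = Φ x) : e.Sd ⟨c.m, W', Φ', c.z⟩ β := by
  obtain ⟨w, ζ, t, a, b, d⟩ := h
  have i := prod_mono_right (s := (univ : Set e.X.Y.M)) (ht_anti e (le_max_right s t))
  have j := fun x (hx : x ∈ univ ×ˢ e.ht (max s t)) =>
    k _ ⟨x, prod_mono_right (ht_anti e (le_max_left s t)) hx, rfl⟩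
  refine ⟨w, ζ, max s t, a, (ht_anti e (le_max_right s t)).trans b, ⟨d.m.su.mono i,
    fun x hx => d.m.uu x (i hx), fun x hx => d.m.uu' x (i hx), fun x hx => d.m.J x (i hx),
    fun x hx => d.m.ρ x (i hx), fun x hx => d.m.j x (i hx)⟩, fun x hx o => ?_, fun x hx => ?_, d.z⟩
  · exact (congrArg (fun T : En (Fin c.m.N) => _ - w x ∘L T) ((j x hx).1 o)).trans (d.W x (i hx) o)
  · exact (d.Φ x (i hx)).trans (congrArg (fun v => cs β.m.J ζ (w x v)) (j x hx).2.symm)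

theorem cont_kd (hB : B.OK Z.I) (hc : c.Adm B G) : Continuous (c.m.kd B G.F c.W) :=
  continuous_iff_continuousAt.2 fun _ =>
    (fsm_kd hB isOpen_univ (admOn_univ.2 hc) trivial).continuousAt

/-- **one end** -/
theorem end1 (hD : e.X.D.OK) (hB : B.OK Z.I) (hG : G.OK B) (hc : c.Adm B G) (hβ : e.X.D.Adm β)
    {ζ : Circle} (hL : e.K.Lim c β ζ (bif e.out then atTop else atBot)) {μ : Measure Z.M}
    (hμ : μ ≤ G.F.μ) (hi : Integrable (c.m.kd B G.F c.W) μ) (s : ℝ) {η : ℝ} (h0 : 0 < η) :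
    ∃ W Φ C, IsClosed C ∧ C ⊆ e.K.tm ⁻¹' e.ht s ∧ (⟨c.m, W, Φ, c.z⟩ : C0 Z κ lam).Adm B G ∧
      (∀ x ∉ C, (∀ a, W a x = c.W a x) ∧ Φ x = c.Φ x) ∧ e.Sd ⟨c.m, W, Φ, c.z⟩ β ∧
      Integrable (fun x => c.m.kd B G.F W x - c.m.kd B G.F c.W x) μ ∧
      |∫ x, (c.m.kd B G.F W x - c.m.kd B G.F c.W x) ∂μ| < η := by
  obtain ⟨C, c0, hE⟩ := ek_cy hD hβ
  obtain ⟨L, l1, hχ⟩ := exists_chi (D := e.X.D) e.out
  set V := e.X.D.F.μ.real univ
  obtain ⟨δ, ⟨d1, d2⟩, d0⟩ := ((((continuous_const_mul (2 * L)).tendsto' 0 0 (mul_zero _)).eventually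
    (ge_mem_nhds one_pos)).and (((continuous_const_mul (V * C * (2 * L))).tendsto' 0 0
      (mul_zero _)).eventually (gt_mem_nhds (half_pos h0))) |>.filter_mono nhdsWithin_le_nhds
    |>.and (self_mem_nhdsWithin (a := (0 : ℝ)) (s := Ioi 0))).exists
  replace d0 : 0 < δ := d0
  obtain ⟨u, hL⟩ := hL
  obtain ⟨S, s1, s2, s3⟩ := hL 1 δ d0
  obtain ⟨a, ha⟩ := ht_sub e s1
  have cg : Continuous fun x => (bif e.out then 1 else -1 : ℝ) * e.K.tm x :=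
    continuous_const.mul e.K.cont
  obtain ⟨t, ⟨t1, t2⟩, t3⟩ := ((((tail hi.abs cg).eventually (gt_mem_nhds (half_pos h0))).and
    (eventually_ge_atTop s)).and (eventually_ge_atTop a)).exists
  have hS : e.ht t ⊆ S := (ht_anti e t3).trans ha
  have ad : ∀ {c : C0 Z κ lam}, c.Adm B G → ∀ {T}, T ⊆ e.K.J →
      AdmOn (e.K.pb c) e.X.D.B e.X.D.G (univ ×ˢ T) := fun h _ k =>
    (admOn_pb e.K isOpen_univ (admOn_univ.2 h)).mono fun x hx => ⟨e.K.mem_src.2 (k hx.2), trivial⟩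
  obtain ⟨χ, N, x1, x2, x3, x4, x5, x6, x7, x8⟩ := hχ t
  have hJ := hS.trans s2
  have cl : IsClosed {r : ℝ | t + 1 / 3 ≤ (bif e.out then 1 else -1) * r} :=
    isClosed_le continuous_const (continuous_const.mul continuous_id)
  have cs : {r : ℝ | t + 1 / 3 ≤ (bif e.out then 1 else -1) * r} ⊆ e.ht t := fun r hr =>
    lt_of_lt_of_le (by linarith) hr.out
  obtain ⟨W, Φ, k1, k2, k3⟩ := cut' e.K hG hc hβ (ht_op e t) hJ
    ((cl_of_cls hβ (ad hc s2) s3).mono (isOpen_univ.prod (ht_op e t)) (prod_mono_right hS) le_rfl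
      le_rfl) x1 cl cs x6
  have sT := ht_anti e (show t ≤ t + 2 / 3 by linarith)
  have oT := isOpen_univ.prod (X := e.X.Y.M) (ht_op e (t + 2 / 3))
  have k4 := k3 _ 0 (ht_op e _) sT (((Lb.const oT (0 : ℝ)).mono norm_zero.le).congr oT
    fun x hx => sub_eq_zero.2 (x7 _ hx.2).symm)
  rw [abs_zero, mul_zero, zero_mul] at k4
  have k5 := k3 N L x2 x4 x5
  rw [abs_of_pos d0, abs_of_nonneg (zero_le_one.trans l1)] at k5
  have key : ∀ T ε, T ⊆ e.K.J → ε ≤ 1 → Cl e.X.D.Z (e.K.pb ⟨c.m, W, Φ, c.z⟩) (cy β) u (fun _ => ζ)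
      (univ ×ˢ T) 1 ε → ∀ x, e.K.tm x ∈ T → |c.m.kd B G.F W x| ≤ C * ε := fun T ε i h1 h2 x hx => by
    have k : x ∈ e.K.ψ.target := e.K.tgt ▸ i hx
    have := (hE _ _ _ _ _ _ (ad k1 i) h2 h1 (e.K.ψ.symm x)
      ⟨trivial, (e.K.snd_symm k).symm ▸ hx⟩).2
    rwa [kZ, kd_pb e.K (e.K.ψ.map_target k), e.K.ψ.right_inv k] at this
  have mN : MeasurableSet (e.K.tm ⁻¹' N) := (x2.preimage e.K.cont).measurableSet
  have mU := (isOpen_lt (continuous_const (y := t)) cg).measurableSet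
  have vN : μ (e.K.tm ⁻¹' N) ≤ e.X.D.F.μ univ := (hμ _).trans
    ((vol_tm e.K x2.measurableSet (x4.trans hJ)).trans (mul_le_of_le_one_right' x3))
  have i1 : Integrable ((e.K.tm ⁻¹' N).indicator fun _ => C * (2 * L * δ)) μ :=
    (integrable_indicator_iff mN).2 (integrableOn_const (vN.trans_lt (measure_lt_top _ _)).ne)
  have i2 := hi.abs.indicator mU
  have p0 : 0 ≤ C * (2 * L * δ) := by positivity
  have bd : ∀ x, ‖c.m.kd B G.F W x - c.m.kd B G.F c.W x‖ ≤ (e.K.tm ⁻¹' N).indicator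
      (fun _ => C * (2 * L * δ)) x + {x | t < (bif e.out then 1 else -1) * e.K.tm x}.indicator
        (fun x => |c.m.kd B G.F c.W x|) x := fun x => by
    have q1 : 0 ≤ (e.K.tm ⁻¹' N).indicator (fun _ => C * (2 * L * δ)) x :=
      indicator_nonneg (fun _ _ => p0) x
    by_cases hx : x ∈ {x | t < (bif e.out then 1 else -1) * e.K.tm x}
    · rw [indicator_of_mem hx]
      refine (norm_sub_le _ _).trans (add_le_add ?_ le_rfl)
      rcases x8 _ hx with k | k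
      · rw [indicator_of_mem (s := e.K.tm ⁻¹' N) k]
        exact key N _ (x4.trans hJ) d1 k5 x k
      · exact (key _ 0 (sT.trans hJ) zero_le_one k4 x k).trans ((mul_zero C).trans_le q1)
    · rw [indicator_of_notMem hx, Loc66.kd_congr (V := c.W) fun o =>
        ((cl.preimage e.K.cont).isOpen_compl.eventually_mem fun k => hx (cs k)).mono
          fun y hy => (k2 y hy).1 o, sub_self, norm_zero, add_zero]
      exact q1
  have i3 := (i1.add i2).mono' ((cont_kd hB k1).sub (cont_kd hB hc)).aestronglyMeasurable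
    (.of_forall bd)
  refine ⟨W, Φ, _, cl.preimage e.K.cont, preimage_mono (cs.trans (ht_anti e t2)), k1, k2,
    ⟨u, ζ, t + 2 / 3, hβ, sT.trans hJ, eq_of_cl hD hβ (ad k1 (sT.trans hJ)) k4⟩, i3,
    (norm_integral_le_of_norm_le (i1.add i2) (.of_forall bd)).trans_lt ?_⟩
  simp only [Pi.add_apply]
  rw [integral_add i1 i2, integral_indicator_const _ mN, integral_indicator mU, smul_eq_mul]
  have : μ.real (e.K.tm ⁻¹' N) ≤ V := ENNReal.toReal_mono (measure_ne_top _ _) vN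
  nlinarith [mul_le_mul_of_nonneg_right this p0]

omit e in
/-- **STZ** for `r = 0` -/
theorem stz0 (b : BG κ lam Z) (β : ∀ a, (b.E a).X.C) (hb : b.OK ∅) (hc : c.Adm b.B b.G)
    (hL : ∀ a, (b.E a).X.D.Adm (β a) ∧
      ∃ ζ, (b.E a).K.Lim c (β a) ζ (bif (b.E a).out then atTop else atBot))
    (hi : IntegrableOn (c.m.kd b.B b.G.F c.W) b.O b.G.F.μ) {η : ℝ} (h0 : 0 < η) :
    ∃ c₀, b.Std c₀ β ∧ |b.kap b.O c₀ - b.kap b.O c| < η := by
  classical
  obtain ⟨s, hs⟩ := hb.en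
  have p : 0 < η / (Fintype.card b.A + 1) := by positivity
  choose W Φ C k1 k2 k3 k4 k5 k6 k7 using fun a => let ⟨_, h⟩ := (hL a).2
    end1 (b.E a) (hb.X a).ok hb.B hb.G hc (hL a).1 h Measure.restrict_le_self hi s p
  have hU : ∀ a, C a ⊆ (b.E a).U s := fun a => U_eq _ (hs a).1 ▸ k2 a
  have oU : ∀ a, IsOpen ((b.E a).U s) := fun a =>
    U_eq _ (hs a).1 ▸ (ht_op _ s).preimage (b.E a).K.cont
  have nC : ∀ a, ∀ x ∈ (b.E a).U s, ∀ a' ≠ a, x ∉ C a' := fun a x hx a' h k =>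
    disjoint_left.1 ((hs a).2.2 a' h) hx (hU a' k)
  have oC : IsOpen (⋃ a, C a)ᶜ := (isClosed_iUnion_of_finite k1).isOpen_compl
  have sum1 : ∀ {N : Type} [AddCommGroup N] (f : b.A → N) (g : N) a, (∀ a' ≠ a, f a' = g) →
      g + ∑ a', (f a' - g) = f a := fun f g a h => by
    rw [Finset.sum_eq_single a (fun a' _ k => sub_eq_zero.2 (h a' k)) (by simp), add_sub_cancel]
  have sum0 : ∀ {N : Type} [AddCommGroup N] (f : b.A → N) (g : N), (∀ a', f a' = g) →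
      g + ∑ a', (f a' - g) = g := fun f g h => by simp [h]
  let W₀ : c.m.Cn := fun o x => c.W o x + ∑ a, (W a o x - c.W o x)
  let Φ₀ : Z.M → c.m.V := fun x => c.Φ x + ∑ a, (Φ a x - c.Φ x)
  have e1 : ∀ a, ∀ x ∈ (b.E a).U s, (∀ o, W₀ o x = W a o x) ∧ Φ₀ x = Φ a x := fun a x hx =>
    ⟨fun o => sum1 (fun a => W a o x) _ a fun a' h => (k4 a' x (nC a x hx a' h)).1 o,
      sum1 (fun a => Φ a x) _ a fun a' h => (k4 a' x (nC a x hx a' h)).2⟩
  have e2 : ∀ x ∈ (⋃ a, C a)ᶜ, (∀ o, W₀ o x = c.W o x) ∧ Φ₀ x = c.Φ x := fun x hx =>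
    have k := fun a => k4 a x fun h => hx (mem_iUnion.2 ⟨a, h⟩)
    ⟨fun o => sum0 _ _ fun a => (k a).1 o, sum0 _ _ fun a => (k a).2⟩
  have cov : ∀ x, (∃ a, x ∈ (b.E a).U s) ∨ x ∈ (⋃ a, C a)ᶜ := fun x =>
    (em (x ∈ ⋃ a, C a)).imp_left fun h => let ⟨a, k⟩ := mem_iUnion.1 h; ⟨a, hU a k⟩
  have kc : ∀ a, ∀ x ∉ C a, c.m.kd b.B b.G.F (W a) x = c.m.kd b.B b.G.F c.W x := fun a x hx =>
    Loc66.kd_congr fun o => ((k1 a).isOpen_compl.eventually_mem hx).mono fun y hy => (k4 a y hy).1 o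
  have e3 : ∀ x, c.m.kd b.B b.G.F W₀ x = c.m.kd b.B b.G.F c.W x +
      ∑ a, (c.m.kd b.B b.G.F (W a) x - c.m.kd b.B b.G.F c.W x) := fun x => by
    rcases cov x with ⟨a, h⟩ | h
    · rw [sum1 _ _ a fun a' k => kc a' x (nC a x h a' k)]
      exact Loc66.kd_congr fun o => ((oU a).eventually_mem h).mono fun y hy => (e1 a y hy).1 o
    · rw [sum0 _ _ fun a => kc a x fun k => h (mem_iUnion.2 ⟨a, k⟩)]
      exact Loc66.kd_congr fun o => (oC.eventually_mem h).mono fun y hy => (e2 y hy).1 o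
  refine ⟨⟨c.m, W₀, Φ₀, c.z⟩, ⟨adm_loc hc fun x => (cov x).elim
    (fun ⟨a, h⟩ => ⟨_, _, _, oU a, h, k3 a, e1 a⟩) fun h => ⟨_, _, _, oC, h, hc, e2⟩,
    fun a => sd_congr _ (k5 a) (e1 a)⟩, ?_⟩
  rw [BG.kap, BG.kap, funext e3, integral_add hi (integrable_finsetSum _ fun a _ => k6 a),
    integral_finsetSum _ fun a _ => k6 a, add_sub_cancel_left]
  refine (Finset.abs_sum_le_sum_abs _ _).trans_lt
    ((Finset.sum_le_card_nsmul _ _ _ fun a _ => (k7 a).le).trans_lt ?_)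
  rw [nsmul_eq_mul, Finset.card_univ, ← mul_div_assoc, div_lt_iff₀ (by positivity)]
  linarith

omit e in
/-- **STZ** -/
theorem stz' (b : BG κ lam Z) (r : ℕ) (c : Cfg Z.M (Option κ) lam r) (β : ∀ a, (b.E a).X.C)
    (hb : b.OK ∅) (hc : c.Adm b.B b.G) (hL : ∀ a, (b.E a).X.D.Adm (β a) ∧
      ∃ ζ, (b.E a).K.Lim c (β a) ζ (bif (b.E a).out then atTop else atBot))
    (hi : IntegrableOn (c.m.kd b.B b.G.F c.W) b.O b.G.F.μ) (η : ℝ) (h0 : η > 0) :
    ∃ c₀, b.Std c₀ β ∧ |b.kap b.O c₀ - ∫ x in b.O, c.m.kd b.B b.G.F c.W x ∂b.G.F.μ| < η :=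
  stz0 (c := noz c) b β hb ⟨hc.ok, hc.conn, hc.sm, hc.pos, .inl rfl⟩ (fun a => ⟨(hL a).1,
    let ⟨ζ, u, h⟩ := (hL a).2
    ⟨ζ, u, fun k η p => let ⟨S, a, b, d⟩ := h k η p; ⟨S, a, b, d.op, d.m, d.A, d.P⟩⟩⟩) hi h0

end Crest.Agent.X212.Exs4
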